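import Vale.Agent.N174B.Defs
import Vale.Agent.N174B.Coc
import Vale.Agent.N174B.Conv

/-!
P174: nonsingular systems have solutions that commute with the centralizer of the coefficients;
second cohomology and homology.
-/

namespace Vale.Agent.Results.P174.A0Central

open Vale.Agent.N174B

universe u

/-- For every group `G` and all `m`, `n`:
(1) if the coefficients of a nonsingular system lie in a subgroup `K`, there is a solution in an
overgroup of `G` that commutes with the centralizer of `K` in `G`;
(2) for trivial coefficient modules, restriction in `H²` is onto and the map in `H₂` is
injective. -/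
theorem result (G : Type u) [Group G] (m n : ℕ) :
    (∀ (K : Subgroup G) (w : Fin m → FP K n), rankQ (expMat w) = m → SolvableComm K w) ∧
    ∀ w : Fin m → FP G n, rankQ (expMat w) = m →
      ∀ (k : Type u) [CommRing k] (A : Type u) [AddCommGroup A] [Module k A],
        H2Good k A (can w) :=
  ⟨solvable_centralizer, fun w hw k _ A _ _ => ⟨H2_surj k A w hw, H2_inj k A w hw⟩⟩

end Vale.Agent.Results.P174.A0Central
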