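import Vale.Agent.P174.Bdl.D
import Vale.Agent.N174.Defs
import Vale.Agent.N174.Content
import Vale.Agent.N174.Rel

/-!
P174: one equation with nontrivial content, also relative to a left-orderable image.
-/

namespace Vale.Agent.Results.P174.A0Covering

open Vale.Agent.P174 Vale.Agent.N174

universe u v

/-- For every group `G`:
(1) one equation whose content in the free group is nontrivial is solvable over `G`;
(2) one equation whose image over a left-orderable image `P` of `G` is not conjugate to an element
of `P` is solvable over `G`. -/
theorem result (G : Type u) [Group G] :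
    (∀ (n : ℕ) (w : Words G n), Monoid.Coprod.snd w ≠ 1 → SolvableOver fun _ : Fin 1 => w) ∧
    (∀ (P : Type v) [Group P], LeftOrderable P → ∀ (ρ : G →* P) (n : ℕ) (w : Words G n),
      (∀ q : P, ¬ IsConj (Monoid.Coprod.map ρ (MonoidHom.id _) w) (Monoid.Coprod.inl q)) →
        SolvableOver fun _ : Fin 1 => w) :=
  ⟨fun _ w hw => (solvable_iff _).2 (injects_of_content w hw),
    fun _ _ hP ρ _ w hw => solvable_of_LO hP ρ w hw⟩

end Vale.Agent.Results.P174.A0Covering
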